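/-!
Computational definitions for the 63-dimensional Borsuk counterexample.
Everything here is written with bare recursors and bare `Nat` functions, so that the kernel
evaluates the checks quickly.  No import is needed.
-/

namespace Vale.Agent.P052.B63

/-- `nth l k` is the `k`-th member of `l` (and `0` beyond the end). -/
noncomputable def nth (l : List Nat) : Nat → Nat :=
  List.rec (motive := fun _ => Nat → Nat) (fun _ => 0)
    (fun p _ ih i => Nat.rec (motive := fun _ => Nat) p (fun i' _ => ih i') i) l

/-- the `j`-th entry (shifted by 16) stored in the packed row `x`: five bits at position `19 * j` -/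
def dig (x j : Nat) : Nat := Nat.mod (Nat.shiftRight x (Nat.mul 19 j)) 32

/-- rebuild a packed row from its first `n` entries -/
noncomputable def repack (n : Nat) : Nat → Nat :=
  Nat.rec (motive := fun _ => Nat → Nat) (fun _ => 0)
    (fun _ ih x => Nat.add (Nat.mod x 32) (Nat.mul 524288 (ih (Nat.shiftRight x 19)))) n

/-- the packed all-ones row: `1 + B + ... + B ^ 415` with `B = 2 ^ 19 = 524288` -/
def UU : Nat := Nat.div (Nat.sub (Nat.pow 524288 416) 1) 524287

/-- `dotN i l` is the sum over the packed rows `p` in `l` of `(entry i of p) * p` -/
noncomputable def dotN (i : Nat) (l : List Nat) : Nat :=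
  List.rec (motive := fun _ => Nat) 0 (fun p _ ih => Nat.add (Nat.mul (dig p i) p) ih) l

/-- row `k` of `l` is rebuilt from its 416 five-bit entries -/
noncomputable def chkRepack (l : List Nat) (k : Nat) : Bool :=
  Nat.beq (repack 416 (nth l k)) (nth l k)

/-- packed form of column `i` of the identity `Hᵀ H = 96 H + 104960 J` -/
noncomputable def chkRow (l : List Nat) (i : Nat) : Bool :=
  Nat.beq (dotN i l) (Nat.add (Nat.mul 96 (nth l i)) (Nat.mul 104960 UU))

/-- sum of a list -/
noncomputable def sumL (l : List Nat) : Nat :=
  List.rec (motive := fun _ => Nat) 0 (fun p _ ih => Nat.add p ih) l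

/-- `allFrom f lo len` checks `f lo, f (lo+1), ..., f (lo+len-1)` -/
noncomputable def allFrom (f : Nat → Bool) (lo len : Nat) : Bool :=
  Nat.rec (motive := fun _ => Bool) true
    (fun k ih => Bool.rec (motive := fun _ => Bool) false ih (f (Nat.add lo k))) len

/-- `sumFrom f n = f 0 + ... + f (n-1)` -/
noncomputable def sumFrom (f : Nat → Nat) (n : Nat) : Nat :=
  Nat.rec (motive := fun _ => Nat) 0 (fun k ih => Nat.add (f k) ih) n

/-- bit `j` of `r` -/
def tb (r j : Nat) : Bool := Nat.beq (Nat.land (Nat.shiftRight r j) 1) 1

/-- keep the members `p` of `l` with bit `p.1` of `r` set -/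
noncomputable def filt (r : Nat) (l : List (Nat × Nat)) : List (Nat × Nat) :=
  List.rec (motive := fun _ => List (Nat × Nat)) []
    (fun p _ ih => Bool.rec (motive := fun _ => List (Nat × Nat)) ih (p :: ih) (tb r p.1)) l

/-- one level of the clique search -/
noncomputable def stepL (sub : List (Nat × Nat) → Bool) (l : List (Nat × Nat)) : Bool :=
  List.rec (motive := fun _ => Bool) true
    (fun v t ih => Bool.rec (motive := fun _ => Bool) false ih (sub (filt v.2 t))) l

/-- `noK k l = true` certifies that `l` has no `k` pairwise adjacent members -/
noncomputable def noK (k : Nat) : List (Nat × Nat) → Bool :=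
  Nat.rec (motive := fun _ => List (Nat × Nat) → Bool) (fun _ => false) (fun _ ih => stepL ih) k

/-- the clique search restricted to the first `m` top members of the list -/
noncomputable def stepTop (sub : List (Nat × Nat) → Bool) (m : Nat) : List (Nat × Nat) → Bool :=
  Nat.rec (motive := fun _ => List (Nat × Nat) → Bool) (fun _ => true)
    (fun _ ih l => List.rec (motive := fun _ => Bool) true
      (fun v t _ => Bool.rec (motive := fun _ => Bool) false (ih t) (sub (filt v.2 t))) l) m

/-- for the packed row `x` and the mask `m`: every member `q` of `l` whose entry in `x` is `19`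
(that is, Gram entry `3`) has its bit set in `m` -/
noncomputable def linkRow (x m : Nat) (l : List (Nat × Nat)) : Bool :=
  List.rec (motive := fun _ => Bool) true
    (fun q _ ih => Bool.rec (motive := fun _ => Bool) ih
      (Bool.rec (motive := fun _ => Bool) false ih (tb m q.1)) (Nat.beq (dig x q.1) 19)) l

/-- `linkRow` for all members of `l'` against all members of `l`, rows taken from `rows` -/
noncomputable def linkAll (rows : List Nat) (l l' : List (Nat × Nat)) : Bool :=
  List.rec (motive := fun _ => Bool) true
    (fun p _ ih => Bool.rec (motive := fun _ => Bool) false ih (linkRow (nth rows p.1) p.2 l)) l'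

/-- entries `j < n`, `j ≠ i` of the packed row `x` are all `19` or `15` (Gram entries `3`, `-1`) -/
noncomputable def offRow (x i n : Nat) : Bool :=
  allFrom (fun j => Bool.rec (motive := fun _ => Bool)
    (Bool.rec (motive := fun _ => Bool) (Nat.beq (dig x j) 15) true (Nat.beq (dig x j) 19))
    true (Nat.beq j i)) 0 n

end Vale.Agent.P052.B63
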