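import Mathlib
import Vale.Agent.P052.B63.Defs

/-!
Meaning of the recursor-style definitions of `Defs` in terms of finite sums.
-/

namespace Vale.Agent.P052.B63

theorem allFrom_succ (f : ℕ → Bool) (lo len : ℕ) :
    allFrom f lo (len + 1) = (f (lo + len) && allFrom f lo len) := by
  show Bool.rec (motive := fun _ => Bool) false (allFrom f lo len) (f (Nat.add lo len)) = _
  cases f (lo + len) <;> rfl

theorem allFrom_iff (f : ℕ → Bool) (lo len : ℕ) :
    allFrom f lo len = true ↔ ∀ k < len, f (lo + k) = true := by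
  induction len with
  | zero => simp [allFrom]
  | succ n ih =>
    rw [allFrom_succ, Bool.and_eq_true, ih]
    constructor
    · rintro ⟨h1, h2⟩ k hk
      rcases Nat.lt_succ_iff_lt_or_eq.mp hk with h | h
      · exact h2 k h
      · rw [h]; exact h1
    · intro h
      exact ⟨h n (Nat.lt_succ_self n), fun k hk => h k (Nat.lt_succ_of_lt hk)⟩

theorem sumFrom_eq (f : ℕ → ℕ) (n : ℕ) : sumFrom f n = ∑ k ∈ Finset.range n, f k := by
  induction n with
  | zero => simp [sumFrom]
  | succ n ih =>
    rw [Finset.sum_range_succ, ← ih, add_comm (sumFrom f n)]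
    rfl

theorem dig_eq (x j : ℕ) : dig x j = (x >>> (19 * j)) % 32 := rfl

theorem dig_lt (x j : ℕ) : dig x j < 32 := by
  rw [dig_eq]
  exact Nat.mod_lt _ (by norm_num)

theorem dig_zero (x : ℕ) : dig x 0 = x % 32 := by
  rw [dig_eq]; simp

theorem dig_succ (x j : ℕ) : dig x (j + 1) = dig (x >>> 19) j := by
  rw [dig_eq, dig_eq, ← Nat.shiftRight_add]
  congr 2
  ring

theorem repack_succ (n x : ℕ) :
    repack (n + 1) x = x % 32 + 524288 * repack n (x >>> 19) := rfl

theorem repack_eq (n x : ℕ) : repack n x = ∑ j ∈ Finset.range n, dig x j * 524288 ^ j := by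
  induction n generalizing x with
  | zero => simp [repack]
  | succ n ih =>
    rw [repack_succ, ih, Finset.sum_range_succ', Finset.mul_sum, dig_zero, pow_zero, mul_one,
      add_comm]
    congr 1
    refine Finset.sum_congr rfl fun j _ => ?_
    rw [dig_succ, pow_succ]
    ring

theorem nth_cons_zero (p : ℕ) (t : List ℕ) : nth (p :: t) 0 = p := rfl

theorem nth_cons_succ (p : ℕ) (t : List ℕ) (k : ℕ) : nth (p :: t) (k + 1) = nth t k := rfl

theorem dotN_cons (i p : ℕ) (t : List ℕ) : dotN i (p :: t) = dig p i * p + dotN i t := rfl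

theorem dotN_eq (i : ℕ) (l : List ℕ) :
    dotN i l = ∑ k ∈ Finset.range l.length, dig (nth l k) i * nth l k := by
  induction l with
  | nil => simp [dotN]
  | cons p t ih =>
    rw [dotN_cons, ih, List.length_cons, Finset.sum_range_succ', nth_cons_zero, add_comm]
    rfl

theorem sumL_cons (p : ℕ) (t : List ℕ) : sumL (p :: t) = p + sumL t := rfl

theorem sumL_eq (l : List ℕ) : sumL l = ∑ k ∈ Finset.range l.length, nth l k := by
  induction l with
  | nil => simp [sumL]
  | cons p t ih =>
    rw [sumL_cons, ih, List.length_cons, Finset.sum_range_succ', nth_cons_zero, add_comm]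
    rfl

theorem UU_eq : UU = ∑ j ∈ Finset.range 416, 524288 ^ j := by
  rw [Nat.geomSum_eq (by norm_num : 2 ≤ 524288) 416]
  rfl

/-- uniqueness of base `B` expansions -/
theorem digits_unique (B : ℕ) (n : ℕ) (a b : ℕ → ℕ) (ha : ∀ j < n, a j < B)
    (hb : ∀ j < n, b j < B)
    (h : ∑ j ∈ Finset.range n, a j * B ^ j = ∑ j ∈ Finset.range n, b j * B ^ j) :
    ∀ j < n, a j = b j := by
  induction n generalizing a b with
  | zero => intro j hj; omega
  | succ n ih =>
    have hB : 0 < B := lt_of_le_of_lt (Nat.zero_le _) (ha 0 (Nat.succ_pos n))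
    have key : ∀ c : ℕ → ℕ, ∑ j ∈ Finset.range (n + 1), c j * B ^ j
        = c 0 + B * ∑ j ∈ Finset.range n, c (j + 1) * B ^ j := by
      intro c
      rw [Finset.sum_range_succ', Finset.mul_sum, pow_zero, mul_one, add_comm]
      congr 1
      refine Finset.sum_congr rfl fun j _ => ?_
      rw [pow_succ]; ring
    rw [key a, key b] at h
    have h0 : a 0 = b 0 := by
      have h1 := congrArg (· % B) h
      simp only [Nat.add_mul_mod_self_left] at h1
      rwa [Nat.mod_eq_of_lt (ha 0 (Nat.succ_pos n)), Nat.mod_eq_of_lt (hb 0 (Nat.succ_pos n))]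
        at h1
    rw [h0] at h
    have h2 := Nat.eq_of_mul_eq_mul_left hB (Nat.add_left_cancel h)
    have h3 := ih (fun j => a (j + 1)) (fun j => b (j + 1))
      (fun j hj => ha (j + 1) (Nat.succ_lt_succ hj)) (fun j hj => hb (j + 1) (Nat.succ_lt_succ hj))
      h2
    intro j hj
    cases j with
    | zero => exact h0
    | succ j => exact h3 j (Nat.lt_of_succ_lt_succ hj)

end Vale.Agent.P052.B63
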