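import Vale.Agent.P052.B63.Defs
import Vale.Agent.P052.B63.Data
import Vale.Agent.P052.B63.Verts

/-!
Kernel-evaluated checks on the packed Gram matrix `Ps` and on the adjacency masks `verts`.
-/

namespace Vale.Agent.P052.B63

theorem length_Ps : Ps.length = 416 := by decide +kernel

theorem repack_all : allFrom (chkRepack Ps) 0 416 = true := by decide +kernel

theorem row_all : allFrom (chkRow Ps) 0 416 = true := by decide +kernel

theorem sum_all : sumL Ps = Nat.mul 6656 UU := by decide +kernel

theorem trace_all : sumFrom (fun i => dig (nth Ps i) i) 416 = 12704 := by decide +kernel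

theorem diag_all : allFrom (fun i => Nat.beq (dig (nth Ps i) i) 31) 0 320 = true := by
  decide +kernel

theorem diag_last : dig (nth Ps 320) 320 = 29 := by decide +kernel

theorem far_pair : dig (nth Ps 0) 1 = 15 := by decide +kernel

theorem off_all : allFrom (fun i => offRow (nth Ps i) i 321) 0 321 = true := by decide +kernel

theorem link_all : linkAll Ps verts verts = true := by decide +kernel

theorem verts_fst : verts.map Prod.fst = List.range 321 := by decide +kernel

end Vale.Agent.P052.B63
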