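import Vale.Agent.P052.B63.Defs
import Vale.Agent.P052.B63.Verts

namespace Vale.Agent.P052.B63

theorem clique_chunk3 : stepTop (noK 5) 18 (verts.drop 38) = true := by decide +kernel

end Vale.Agent.P052.B63
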