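import Mathlib
import Vale.Agent.P052.B63.Defs

/-!
Soundness of the clique search of `Defs`.
-/

namespace Vale.Agent.P052.B63

private theorem brec_false_eq_true {a b : Bool} :
    Bool.rec (motive := fun _ => Bool) false a b = true ↔ b = true ∧ a = true := by
  cases b <;> simp

private theorem mem_filt (r : ℕ) (l : List (ℕ × ℕ)) (q : ℕ × ℕ) :
    q ∈ filt r l ↔ q ∈ l ∧ tb r q.1 = true := by
  induction l with
  | nil => simp [show filt r [] = [] from rfl]
  | cons p t ih =>
    have e : filt r (p :: t) = Bool.rec (motive := fun _ => List (ℕ × ℕ)) (filt r t)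
        (p :: filt r t) (tb r p.1) := rfl
    rw [e]
    cases hb : tb r p.1 with
    | false =>
      simp only [ih, List.mem_cons]
      constructor
      · rintro ⟨h1, h2⟩
        exact ⟨Or.inr h1, h2⟩
      · rintro ⟨h1 | h1, h2⟩
        · subst h1
          rw [hb] at h2
          exact absurd h2 (by simp)
        · exact ⟨h1, h2⟩
    | true =>
      simp only [List.mem_cons, ih]
      constructor
      · rintro (h1 | ⟨h1, h2⟩)
        · subst h1
          exact ⟨Or.inl rfl, hb⟩
        · exact ⟨Or.inr h1, h2⟩
      · rintro ⟨h1 | h1, h2⟩
        · exact Or.inl h1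
        · exact Or.inr ⟨h1, h2⟩

private theorem stepL_cons (sub : List (ℕ × ℕ) → Bool) (v : ℕ × ℕ) (t : List (ℕ × ℕ)) :
    stepL sub (v :: t) = true ↔ sub (filt v.2 t) = true ∧ stepL sub t = true := by
  have e : stepL sub (v :: t) = Bool.rec (motive := fun _ => Bool) false (stepL sub t)
      (sub (filt v.2 t)) := rfl
  rw [e]
  exact brec_false_eq_true

theorem noK_sound (adj : ℕ → ℕ → Prop) (k : ℕ) (l : List (ℕ × ℕ))
    (hlink : ∀ p ∈ l, ∀ q ∈ l, adj p.1 q.1 → tb p.2 q.1 = true)
    (h : noK k l = true) (S : Finset ℕ) (hS : ∀ i ∈ S, i ∈ l.map Prod.fst)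
    (hcl : ∀ i ∈ S, ∀ j ∈ S, i ≠ j → adj i j) : S.card < k := by
  induction k generalizing l S with
  | zero =>
    have e : noK 0 l = false := rfl
    rw [e] at h
    exact absurd h (by simp)
  | succ k ihk =>
    induction l generalizing S with
    | nil =>
      have : S = ∅ := by
        apply Finset.eq_empty_of_forall_notMem
        intro i hi
        have := hS i hi
        simp at this
      subst this
      simp
    | cons v t iht =>
      have e : noK (k + 1) (v :: t) = stepL (noK k) (v :: t) := rfl
      rw [e, stepL_cons] at h
      obtain ⟨h1, h2⟩ := h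
      by_cases hv : v.1 ∈ S
      · have hlt : (S.erase v.1).card < k := by
          apply ihk (filt v.2 t) _ h1 (S.erase v.1)
          · intro i hi
            have hi' := Finset.mem_erase.1 hi
            have hm := hS i hi'.2
            rw [List.map_cons, List.mem_cons] at hm
            rcases hm with hm | hm
            · exact absurd hm hi'.1
            · obtain ⟨q, hq, rfl⟩ := List.mem_map.1 hm
              apply List.mem_map.2
              refine ⟨q, (mem_filt _ _ _).2 ⟨hq, ?_⟩, rfl⟩
              apply hlink v (List.mem_cons_self) q (List.mem_cons_of_mem _ hq)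
              exact hcl _ hv _ hi'.2 (Ne.symm hi'.1)
          · intro i hi j hj hij
            exact hcl i (Finset.mem_of_mem_erase hi) j (Finset.mem_of_mem_erase hj) hij
          · intro p hp q hq hpq
            exact hlink p (List.mem_cons_of_mem _ ((mem_filt _ _ _).1 hp).1) q
              (List.mem_cons_of_mem _ ((mem_filt _ _ _).1 hq).1) hpq
        rw [Finset.card_erase_of_mem hv] at hlt
        omega
      · refine iht ?_ h2 S ?_ hcl
        · intro p hp q hq hpq
          exact hlink p (List.mem_cons_of_mem _ hp) q (List.mem_cons_of_mem _ hq) hpq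
        · intro i hi
          have hm := hS i hi
          rw [List.map_cons, List.mem_cons] at hm
          rcases hm with hm | hm
          · subst hm
            exact absurd hi hv
          · exact hm

theorem stepL_of_stepTop (sub : List (ℕ × ℕ) → Bool) (m : ℕ) (l : List (ℕ × ℕ))
    (h1 : stepTop sub m l = true) (h2 : stepL sub (l.drop m) = true) : stepL sub l = true := by
  induction m generalizing l with
  | zero => simpa using h2
  | succ m ih =>
    cases l with
    | nil => rfl
    | cons v t =>
      have e : stepTop sub (m + 1) (v :: t) = Bool.rec (motive := fun _ => Bool) false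
          (stepTop sub m t) (sub (filt v.2 t)) := rfl
      rw [e, brec_false_eq_true] at h1
      rw [stepL_cons]
      refine ⟨h1.1, ih t h1.2 ?_⟩
      simpa using h2

private theorem linkRow_sound (x m : ℕ) (l : List (ℕ × ℕ)) (h : linkRow x m l = true) :
    ∀ q ∈ l, dig x q.1 = 19 → tb m q.1 = true := by
  induction l with
  | nil => intro q hq; simp at hq
  | cons p t ih =>
    have e : linkRow x m (p :: t) = Bool.rec (motive := fun _ => Bool) (linkRow x m t)
      (Bool.rec (motive := fun _ => Bool) false (linkRow x m t) (tb m p.1))
      (Nat.beq (dig x p.1) 19) := rfl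
    rw [e] at h
    intro q hq hd
    rcases List.mem_cons.1 hq with rfl | hq
    · have hb : Nat.beq (dig x q.1) 19 = true := by
        rw [hd]; rfl
      rw [hb] at h
      exact (brec_false_eq_true.1 h).1
    · cases hb : Nat.beq (dig x p.1) 19 with
      | false =>
        rw [hb] at h
        exact ih h q hq hd
      | true =>
        rw [hb] at h
        exact ih (brec_false_eq_true.1 h).2 q hq hd

theorem linkAll_sound (rows : List ℕ) (l l' : List (ℕ × ℕ)) (h : linkAll rows l l' = true) :
    ∀ p ∈ l', ∀ q ∈ l, dig (nth rows p.1) q.1 = 19 → tb p.2 q.1 = true := by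
  induction l' with
  | nil => intro p hp; simp at hp
  | cons v t ih =>
    have e : linkAll rows l (v :: t) = Bool.rec (motive := fun _ => Bool) false
      (linkAll rows l t) (linkRow (nth rows v.1) v.2 l) := rfl
    rw [e, brec_false_eq_true] at h
    intro p hp
    rcases List.mem_cons.1 hp with rfl | hp
    · exact linkRow_sound _ _ _ h.1
    · exact ih h.2 p hp

private theorem allFrom_sound (f : ℕ → Bool) (lo len : ℕ) (h : allFrom f lo len = true) :
    ∀ k < len, f (lo + k) = true := by
  induction len with
  | zero => intro k hk; omega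
  | succ n ih =>
    have e : allFrom f lo (n + 1) = Bool.rec (motive := fun _ => Bool) false
      (allFrom f lo n) (f (Nat.add lo n)) := rfl
    rw [e, brec_false_eq_true] at h
    intro k hk
    rcases Nat.lt_succ_iff_lt_or_eq.1 hk with hk | rfl
    · exact ih h.2 k hk
    · exact h.1

theorem offRow_sound (x i n : ℕ) (h : offRow x i n = true) :
    ∀ j < n, j ≠ i → dig x j = 19 ∨ dig x j = 15 := by
  intro j hj hji
  have h' := allFrom_sound _ 0 n h j hj
  simp only [Nat.zero_add] at h'
  have hb : Nat.beq j i = false := by
    cases hb : Nat.beq j i with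
    | false => rfl
    | true => exact absurd (Nat.eq_of_beq_eq_true hb) hji
  rw [hb] at h'
  cases h19 : Nat.beq (dig x j) 19 with
  | true => exact Or.inl (Nat.eq_of_beq_eq_true h19)
  | false =>
    rw [h19] at h'
    exact Or.inr (Nat.eq_of_beq_eq_true h')

end Vale.Agent.P052.B63
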