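import Mathlib

/-!
The counting argument: many points, few of them pairwise at distance less than the diameter.
-/

namespace Vale.Agent.P052.B63

theorem no_small_cover {E : Type*} [MetricSpace E] (N m c : ℕ) (p : Fin N → E) (D : ℝ)
    (hD : 0 < D) (hle : ∀ i j, dist (p i) (p j) ≤ D) (hex : ∃ i j, dist (p i) (p j) = D)
    (hcl : ∀ S : Finset (Fin N), (∀ i ∈ S, ∀ j ∈ S, dist (p i) (p j) < D) → S.card ≤ c)
    (hN : c * m < N) :
    (Set.range p).Finite ∧ 0 < Metric.diam (Set.range p) ∧
      ¬ ∃ P : Fin m → Set E, (⋃ i, P i) = Set.range p ∧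
        ∀ i, Metric.diam (P i) < Metric.diam (Set.range p) := by
  classical
  have hfin : (Set.range p).Finite := Set.finite_range p
  have hbdd : Bornology.IsBounded (Set.range p) := hfin.isBounded
  have hdiam : Metric.diam (Set.range p) = D := by
    apply le_antisymm
    · apply Metric.diam_le_of_forall_dist_le hD.le
      rintro _ ⟨i, rfl⟩ _ ⟨j, rfl⟩
      exact hle i j
    · obtain ⟨i, j, hij⟩ := hex
      rw [← hij]
      exact Metric.dist_le_diam_of_mem hbdd ⟨i, rfl⟩ ⟨j, rfl⟩
  refine ⟨hfin, by rw [hdiam]; exact hD, ?_⟩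
  rintro ⟨P, hU, hP⟩
  rw [hdiam] at hP
  have hmem : ∀ i : Fin N, ∃ k : Fin m, p i ∈ P k := by
    intro i
    have : p i ∈ ⋃ k, P k := by
      rw [hU]
      exact ⟨i, rfl⟩
    exact Set.mem_iUnion.mp this
  choose k hk using hmem
  have hcard : (Finset.univ : Finset (Fin m)).card * c < (Finset.univ : Finset (Fin N)).card := by
    rw [Finset.card_univ, Finset.card_univ, Fintype.card_fin, Fintype.card_fin, mul_comm]
    exact hN
  obtain ⟨y, _, hy⟩ := Finset.exists_lt_card_fiber_of_mul_lt_card_of_maps_to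
    (s := (Finset.univ : Finset (Fin N))) (t := (Finset.univ : Finset (Fin m))) (f := k)
    (fun a _ => Finset.mem_univ _) hcard
  have hsub : P y ⊆ Set.range p := by
    rw [← hU]
    exact Set.subset_iUnion P y
  have hbP : Bornology.IsBounded (P y) := hbdd.subset hsub
  have := hcl (Finset.univ.filter (fun x => k x = y)) (by
    intro i hi j hj
    have hi' : k i = y := (Finset.mem_filter.mp hi).2
    have hj' : k j = y := (Finset.mem_filter.mp hj).2
    have h1 : p i ∈ P y := hi' ▸ hk i
    have h2 : p j ∈ P y := hj' ▸ hk j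
    exact lt_of_le_of_lt (Metric.dist_le_diam_of_mem hbP h1 h2) (hP y))
  omega

end Vale.Agent.P052.B63
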