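import Mathlib

/-!
From the Gram data to the 321 points and their distances.
-/

namespace Vale.Agent.P052.B63

/-- The points are `x i` for `i < 320` and `t • x 320` with `t = (√222 - 1) / 13`, and
`D = √3072`. -/
theorem exists_points {E : Type*} [NormedAddCommGroup E] [InnerProductSpace ℝ E]
    (γ : ℕ → ℕ → ℤ) (x : ℕ → E)
    (hx : ∀ i < 321, ∀ j < 321, inner ℝ (x i) (x j) = 96 * (γ i j : ℝ))
    (hd : ∀ i < 320, γ i i = 15) (ha : γ 320 320 = 13)
    (ho : ∀ i < 321, ∀ j < 321, i ≠ j → γ i j = 3 ∨ γ i j = -1)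
    (hn : ∃ i < 320, ∃ j < 320, γ i j = -1) :
    ∃ (p : Fin 321 → E) (D : ℝ), 0 < D ∧ (∀ i j, dist (p i) (p j) ≤ D) ∧
      (∃ i j, dist (p i) (p j) = D) ∧
      ∀ i j : Fin 321, i ≠ j → dist (p i) (p j) < D → γ i j = 3 := by
  obtain ⟨t, ht0, ht2⟩ : ∃ t : ℝ, 0 < t ∧ 13 * t ^ 2 + 2 * t = 17 := by
    have hs : Real.sqrt 222 ^ 2 = 222 := Real.sq_sqrt (by norm_num)
    have hs1 : 1 < Real.sqrt 222 := by
      rw [show (1 : ℝ) = Real.sqrt 1 by simp]
      exact Real.sqrt_lt_sqrt (by norm_num) (by norm_num)
    refine ⟨(Real.sqrt 222 - 1) / 13, by apply div_pos <;> linarith, ?_⟩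
    field_simp
    nlinarith
  have hsym : ∀ i < 321, ∀ j < 321, γ i j = γ j i := by
    intro i hi j hj
    have h1 := hx i hi j hj
    have h2 := hx j hj i hi
    rw [real_inner_comm] at h1
    have h3 : (γ i j : ℝ) = (γ j i : ℝ) := by linarith
    exact_mod_cast h3
  let c : ℕ → ℝ := fun i => if i < 320 then 1 else t
  let p : Fin 321 → E := fun i => c i • x i
  have hdist : ∀ i j : Fin 321, dist (p i) (p j) ^ 2 =
      96 * (c i ^ 2 * γ i i - 2 * c i * c j * γ i j + c j ^ 2 * γ j j) := by
    intro i j
    rw [dist_eq_norm, norm_sub_sq_real, ← real_inner_self_eq_norm_sq,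
      ← real_inner_self_eq_norm_sq]
    simp only [p, inner_smul_left, inner_smul_right, hx _ i.2 _ j.2, hx _ i.2 _ i.2,
      hx _ j.2 _ j.2]
    simp only [conj_trivial]
    ring
  -- the diagonal terms
  have hdiag : ∀ i : Fin 321, (i : ℕ) < 320 → c i ^ 2 * (γ i i : ℝ) = 15 := by
    intro i hi
    simp only [c, hi, if_true, hd _ hi]
    norm_num
  have hdiag' : ∀ i : Fin 321, ¬ (i : ℕ) < 320 → c i ^ 2 * (γ i i : ℝ) = 13 * t ^ 2 := by
    intro i hi
    have h320 : (i : ℕ) = 320 := by have := i.2; omega
    simp only [c, hi, if_false, h320, ha]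
    push_cast
    ring
  have key : ∀ i j : Fin 321, i ≠ j →
      (γ i j = -1 → dist (p i) (p j) ^ 2 = 3072) ∧
      (γ i j = 3 → dist (p i) (p j) ^ 2 ≤ 3072) := by
    intro i j hij
    have hne : (i : ℕ) ≠ (j : ℕ) := fun h => hij (Fin.ext h)
    by_cases hi : (i : ℕ) < 320 <;> by_cases hj : (j : ℕ) < 320
    · have e := hdist i j
      have ci : c i = 1 := by simp only [c, hi, if_true]
      have cj : c j = 1 := by simp only [c, hj, if_true]
      have d1 := hdiag i hi
      have d2 := hdiag j hj
      constructor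
      · intro h
        rw [e, h, ci, cj] at *
        push_cast
        nlinarith
      · intro h
        rw [e, h, ci, cj] at *
        push_cast
        nlinarith
    · have e := hdist i j
      have ci : c i = 1 := by simp only [c, hi, if_true]
      have cj : c j = t := by simp only [c, hj, if_false]
      have d1 := hdiag i hi
      have d2 := hdiag' j hj
      constructor
      · intro h
        rw [e, h, d2, ci] at *
        rw [cj]
        push_cast
        nlinarith
      · intro h
        rw [e, h, d2, ci] at *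
        rw [cj]
        push_cast
        nlinarith
    · have e := hdist i j
      have ci : c i = t := by simp only [c, hi, if_false]
      have cj : c j = 1 := by simp only [c, hj, if_true]
      have d1 := hdiag' i hi
      have d2 := hdiag j hj
      constructor
      · intro h
        rw [e, h, d1, cj] at *
        rw [ci]
        push_cast
        nlinarith
      · intro h
        rw [e, h, d1, cj] at *
        rw [ci]
        push_cast
        nlinarith
    · exfalso
      have := i.2
      have := j.2
      omega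
  have hD : (0 : ℝ) < Real.sqrt 3072 := Real.sqrt_pos.mpr (by norm_num)
  have heq : ∀ i j : Fin 321, dist (p i) (p j) ^ 2 = 3072 →
      dist (p i) (p j) = Real.sqrt 3072 := by
    intro i j h
    rw [← h, Real.sqrt_sq dist_nonneg]
  refine ⟨p, Real.sqrt 3072, hD, ?_, ?_, ?_⟩
  · intro i j
    by_cases hij : i = j
    · rw [hij, dist_self]
      exact hD.le
    · apply Real.le_sqrt_of_sq_le
      rcases ho i i.2 j j.2 (fun h => hij (Fin.ext h)) with h | h
      · exact (key i j hij).2 h
      · exact ((key i j hij).1 h).le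
  · obtain ⟨i, hi, j, hj, hg⟩ := hn
    have hij : i ≠ j := by
      rintro rfl
      rw [hd i hi] at hg
      omega
    refine ⟨⟨i, by omega⟩, ⟨j, by omega⟩, heq _ _ ?_⟩
    exact (key ⟨i, by omega⟩ ⟨j, by omega⟩ (fun h => hij (congrArg Fin.val h))).1 hg
  · intro i j hij hlt
    rcases ho i i.2 j j.2 (fun h => hij (Fin.ext h)) with h | h
    · exact h
    · exact absurd (heq i j ((key i j hij).1 h)) hlt.ne

end Vale.Agent.P052.B63
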