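import Mathlib
import Vale.Agent.P052.B63.Basic

/-!
The identity `Gᵀ G = 96 G` for the matrix stored in a list of packed rows, from the packed checks.
-/

namespace Vale.Agent.P052.B63

/-- entry `(i, j)` of the integer matrix stored in the list `l` of packed rows -/
noncomputable def gE (l : List ℕ) (i j : ℕ) : ℤ := (dig (nth l i) j : ℤ) - 16

theorem gram_identity (l : List ℕ) (hlen : l.length = 416)
    (hrep : allFrom (chkRepack l) 0 416 = true)
    (hrow : allFrom (chkRow l) 0 416 = true)
    (hsum : sumL l = Nat.mul 6656 UU) :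
    ∀ i < 416, ∀ j < 416,
      ∑ k ∈ Finset.range 416, gE l k i * gE l k j = 96 * gE l i j := by
  obtain ⟨B, hB⟩ : ∃ B : ℕ, B = 524288 := ⟨_, rfl⟩
  have hUU : UU = ∑ j ∈ Finset.range 416, B ^ j := by rw [UU_eq, hB]
  have hP : ∀ k < 416, nth l k = ∑ j ∈ Finset.range 416, dig (nth l k) j * B ^ j := by
    intro k hk
    have h1 := (allFrom_iff _ _ _).mp hrep k hk
    rw [Nat.zero_add] at h1
    have h2 : repack 416 (nth l k) = nth l k := Nat.eq_of_beq_eq_true h1
    rw [repack_eq, ← hB] at h2
    exact h2.symm
  have hd : ∀ x j, dig x j ≤ 31 := fun x j => Nat.le_of_lt_succ (dig_lt x j)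
  have hcol : ∀ j < 416, ∑ k ∈ Finset.range 416, dig (nth l k) j = 6656 := by
    have h1 : ∑ j ∈ Finset.range 416, (∑ k ∈ Finset.range 416, dig (nth l k) j) * B ^ j =
        ∑ j ∈ Finset.range 416, 6656 * B ^ j := by
      have h2 := hsum
      rw [sumL_eq, hlen, Nat.mul_eq, hUU, Finset.mul_sum] at h2
      rw [← h2, Finset.sum_congr rfl (fun k hk => hP k (Finset.mem_range.mp hk)), Finset.sum_comm]
      apply Finset.sum_congr rfl
      intro j _
      rw [Finset.sum_mul]
    refine digits_unique B 416 _ _ ?_ ?_ h1
    · intro j _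
      have h3 : ∑ k ∈ Finset.range 416, dig (nth l k) j ≤ (Finset.range 416).card • 31 :=
        Finset.sum_le_card_nsmul _ _ _ (fun k _ => hd _ _)
      rw [Finset.card_range, smul_eq_mul] at h3
      omega
    · intro j _
      omega
  have hrowE : ∀ i < 416, ∀ j < 416,
      ∑ k ∈ Finset.range 416, dig (nth l k) i * dig (nth l k) j =
        96 * dig (nth l i) j + 104960 := by
    intro i hi
    have h1 := (allFrom_iff _ _ _).mp hrow i hi
    rw [Nat.zero_add] at h1
    have h2 : dotN i l = Nat.add (Nat.mul 96 (nth l i)) (Nat.mul 104960 UU) :=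
      Nat.eq_of_beq_eq_true h1
    rw [dotN_eq, hlen, Nat.add_eq, Nat.mul_eq, Nat.mul_eq, hUU] at h2
    have h3 : ∑ j ∈ Finset.range 416,
        (∑ k ∈ Finset.range 416, dig (nth l k) i * dig (nth l k) j) * B ^ j =
        ∑ j ∈ Finset.range 416, (96 * dig (nth l i) j + 104960) * B ^ j := by
      have e1 : ∑ k ∈ Finset.range 416, dig (nth l k) i * nth l k =
          ∑ j ∈ Finset.range 416,
            (∑ k ∈ Finset.range 416, dig (nth l k) i * dig (nth l k) j) * B ^ j := by
        have e0 : ∀ k ∈ Finset.range 416, dig (nth l k) i * nth l k =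
            ∑ j ∈ Finset.range 416, dig (nth l k) i * dig (nth l k) j * B ^ j := by
          intro k hk
          have : dig (nth l k) i * nth l k =
              dig (nth l k) i * ∑ j ∈ Finset.range 416, dig (nth l k) j * B ^ j := by
            rw [← hP k (Finset.mem_range.mp hk)]
          rw [this, Finset.mul_sum]
          apply Finset.sum_congr rfl
          intro j _
          rw [mul_assoc]
        rw [Finset.sum_congr rfl e0, Finset.sum_comm]
        apply Finset.sum_congr rfl
        intro j _
        rw [Finset.sum_mul]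
      have e2 : 96 * nth l i + 104960 * ∑ j ∈ Finset.range 416, B ^ j =
          ∑ j ∈ Finset.range 416, (96 * dig (nth l i) j + 104960) * B ^ j := by
        have : 96 * nth l i = 96 * ∑ j ∈ Finset.range 416, dig (nth l i) j * B ^ j := by
          rw [← hP i hi]
        rw [this, Finset.mul_sum, Finset.mul_sum, ← Finset.sum_add_distrib]
        apply Finset.sum_congr rfl
        intro j _
        ring
      rw [← e1, h2, e2]
    refine digits_unique B 416 _ _ ?_ ?_ h3
    · intro j _
      have h4 : ∑ k ∈ Finset.range 416, dig (nth l k) i * dig (nth l k) j ≤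
          (Finset.range 416).card • (31 * 31) :=
        Finset.sum_le_card_nsmul _ _ _ (fun k _ => Nat.mul_le_mul (hd _ _) (hd _ _))
      rw [Finset.card_range, smul_eq_mul] at h4
      omega
    · intro j _
      have := hd (nth l i) j
      omega
  intro i hi j hj
  have c1 := hcol i hi
  have c2 := hcol j hj
  have r := hrowE i hi j hj
  have c1' : ∑ k ∈ Finset.range 416, (dig (nth l k) i : ℤ) = 6656 := by exact_mod_cast c1
  have c2' : ∑ k ∈ Finset.range 416, (dig (nth l k) j : ℤ) = 6656 := by exact_mod_cast c2
  have r' : ∑ k ∈ Finset.range 416, (dig (nth l k) i : ℤ) * (dig (nth l k) j : ℤ) =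
      96 * (dig (nth l i) j : ℤ) + 104960 := by exact_mod_cast r
  have e : ∀ k ∈ Finset.range 416, gE l k i * gE l k j =
      (dig (nth l k) i : ℤ) * (dig (nth l k) j : ℤ) - 16 * (dig (nth l k) i : ℤ)
        - 16 * (dig (nth l k) j : ℤ) + 256 := by
    intro k _
    simp only [gE]
    ring
  rw [Finset.sum_congr rfl e, Finset.sum_add_distrib, Finset.sum_sub_distrib,
    Finset.sum_sub_distrib, ← Finset.mul_sum, ← Finset.mul_sum, c1', c2', r', Finset.sum_const,
    Finset.card_range]
  simp only [gE]
  simp only [nsmul_eq_mul]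
  push_cast
  ring

end Vale.Agent.P052.B63
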