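import Mathlib

/-!
Realising a scaled symmetric idempotent matrix as a Gram matrix in dimension `trace / c`.
-/

namespace Vale.Agent.P052.B63

open Matrix in
/-- If `Gᵀ G = c G` and `trace G = c d`, then `c G` is the Gram matrix of vectors of `ℝ ^ d`. -/
theorem exists_vectors_of_gram {n : Type*} [Fintype n] [DecidableEq n]
    (G : Matrix n n ℝ) (c : ℝ) (hc : c ≠ 0) (d : ℕ)
    (hG : Gᵀ * G = c • G) (htr : G.trace = c * d) :
    ∃ x : n → EuclideanSpace ℝ (Fin d), ∀ v w, inner ℝ (x v) (x w) = c * G v w := by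
  classical
  have hsymm : Gᵀ = G := by
    have h1 : (Gᵀ * G)ᵀ = Gᵀ * G := by
      rw [Matrix.transpose_mul, Matrix.transpose_transpose]
    rw [hG, Matrix.transpose_smul] at h1
    exact smul_right_injective _ hc h1
  have hGG : G * G = c • G := by
    have h := hG
    rw [hsymm] at h
    exact h
  set P : Matrix n n ℝ := c⁻¹ • G with hP
  have hPP : P * P = P := by
    rw [hP, Matrix.smul_mul, Matrix.mul_smul, hGG, smul_smul, smul_smul]
    congr 1
    field_simp
  have hPG : P * G = G := by
    rw [hP, Matrix.smul_mul, hGG, smul_smul, inv_mul_cancel₀ hc, one_smul]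
  let b := (EuclideanSpace.basisFun n ℝ).toBasis
  let f : EuclideanSpace ℝ n →ₗ[ℝ] EuclideanSpace ℝ n := Matrix.toLin b b P
  have hfapp : ∀ y : EuclideanSpace ℝ n, f y = WithLp.toLp 2 (P *ᵥ WithLp.ofLp y) := by
    intro y
    exact Matrix.toLpLin_apply 2 2 P y
  have hidem : IsIdempotentElem f := by
    change f * f = f
    rw [Module.End.mul_eq_comp]
    change Matrix.toLin b b P ∘ₗ Matrix.toLin b b P = Matrix.toLin b b P
    rw [← Matrix.toLin_mul, hPP]
  have hproj : LinearMap.IsProj (LinearMap.range f) f :=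
    (LinearMap.isProj_range_iff_isIdempotentElem f).2 hidem
  have htrace : LinearMap.trace ℝ _ f = P.trace := Matrix.trace_toLin_eq P b
  have hfin : Module.finrank ℝ (LinearMap.range f) = d := by
    have h1 := hproj.trace
    rw [htrace, hP, Matrix.trace_smul, htr, smul_eq_mul, ← mul_assoc, inv_mul_cancel₀ hc,
      one_mul] at h1
    exact_mod_cast h1.symm
  let col : n → EuclideanSpace ℝ n := fun v => WithLp.toLp 2 (fun k => G k v)
  have hcol : ∀ v, col v ∈ LinearMap.range f := by
    intro v
    refine ⟨col v, ?_⟩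
    rw [hfapp]
    change WithLp.toLp 2 (P *ᵥ (fun k => G k v)) = WithLp.toLp 2 (fun k => G k v)
    congr 1
    funext k
    have := congrFun (congrFun hPG k) v
    simpa [Matrix.mul_apply, Matrix.mulVec, dotProduct] using this
  let iso : LinearMap.range f ≃ₗᵢ[ℝ] EuclideanSpace ℝ (Fin d) :=
    ((stdOrthonormalBasis ℝ (LinearMap.range f)).reindex (finCongr hfin)).repr
  refine ⟨fun v => iso ⟨col v, hcol v⟩, ?_⟩
  intro v w
  rw [LinearIsometryEquiv.inner_map_map]
  change inner ℝ (col v) (col w) = c * G v w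
  have h2 := congrFun (congrFun hG v) w
  rw [Matrix.mul_apply, Matrix.smul_apply, smul_eq_mul] at h2
  rw [← h2]
  change inner ℝ (WithLp.toLp 2 (fun k => G k v)) (WithLp.toLp 2 (fun k => G k w)) = _
  rw [EuclideanSpace.inner_toLp_toLp]
  simp [dotProduct, Matrix.transpose_apply, mul_comm]

end Vale.Agent.P052.B63
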