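import Mathlib
import Vale.Agent.P052.B63.GramReal
import Vale.Agent.P052.B63.Cover
import Vale.Agent.P052.B63.Dist

/-!
The abstract part: an integer matrix with the listed properties gives a set of 321 points of
`ℝ ^ 63` which is not the union of 64 sets of smaller diameter.
-/

namespace Vale.Agent.P052.B63

theorem borsuk63_of_gram (g : ℕ → ℕ → ℤ)
    (h1 : ∀ i < 416, ∀ j < 416, ∑ k ∈ Finset.range 416, g k i * g k j = 96 * g i j)
    (h2 : ∑ i ∈ Finset.range 416, g i i = 6048)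
    (hd : ∀ i < 320, g i i = 15) (ha : g 320 320 = 13)
    (ho : ∀ i < 321, ∀ j < 321, i ≠ j → g i j = 3 ∨ g i j = -1)
    (hn : ∃ i < 320, ∃ j < 320, g i j = -1)
    (hc : ∀ S : Finset ℕ, (∀ i ∈ S, i < 321) → (∀ i ∈ S, ∀ j ∈ S, i ≠ j → g i j = 3) →
      S.card ≤ 5) :
    ∃ X : Set (EuclideanSpace ℝ (Fin 63)), X.Finite ∧ 0 < Metric.diam X ∧
      ¬ ∃ P : Fin 64 → Set (EuclideanSpace ℝ (Fin 63)), (⋃ i, P i) = X ∧
        ∀ i, Metric.diam (P i) < Metric.diam X := by
  classical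
  -- the real matrix
  obtain ⟨G, hGa⟩ : ∃ G : Matrix (Fin 416) (Fin 416) ℝ, ∀ i j, G i j = (g i j : ℝ) :=
    ⟨Matrix.of fun i j => (g i j : ℝ), fun _ _ => rfl⟩
  have hG : G.transpose * G = (96 : ℝ) • G := by
    ext i j
    simp only [Matrix.mul_apply, Matrix.transpose_apply, Matrix.smul_apply, smul_eq_mul, hGa]
    have := h1 i i.2 j j.2
    rw [Fin.sum_univ_eq_sum_range (fun k => ((g k i : ℝ)) * (g k j : ℝ)) 416]
    exact_mod_cast this
  have htr : G.trace = (96 : ℝ) * (63 : ℕ) := by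
    simp only [Matrix.trace, Matrix.diag_apply, hGa]
    rw [Fin.sum_univ_eq_sum_range (fun k => ((g k k : ℝ))) 416]
    have : ((∑ i ∈ Finset.range 416, g i i : ℤ) : ℝ) = (6048 : ℤ) := by rw [h2]
    push_cast at this
    rw [this]; norm_num
  obtain ⟨x', hx'⟩ := exists_vectors_of_gram G 96 (by norm_num) 63 hG htr
  let x : ℕ → EuclideanSpace ℝ (Fin 63) := fun i => if h : i < 416 then x' ⟨i, h⟩ else 0
  have hx : ∀ i < 321, ∀ j < 321, inner ℝ (x i) (x j) = 96 * (g i j : ℝ) := by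
    intro i hi j hj
    have hi' : i < 416 := by omega
    have hj' : j < 416 := by omega
    simp only [x, hi', hj', dif_pos]
    rw [hx', hGa]
  obtain ⟨p, D, hD, hle, hex, hlt⟩ := exists_points g x hx hd ha ho hn
  refine ⟨Set.range p, no_small_cover 321 64 5 p D hD hle hex ?_ (by norm_num)⟩
  intro S hS
  have := hc (S.image (fun i : Fin 321 => (i : ℕ))) ?_ ?_
  · rwa [Finset.card_image_of_injective _ Fin.val_injective] at this
  · intro i hi
    obtain ⟨a, _, rfl⟩ := Finset.mem_image.mp hi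
    exact a.2
  · intro i hi j hj hij
    obtain ⟨a, ha', rfl⟩ := Finset.mem_image.mp hi
    obtain ⟨b, hb', rfl⟩ := Finset.mem_image.mp hj
    exact hlt a b (fun h => hij (by rw [h])) (hS a ha' b hb')

end Vale.Agent.P052.B63
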