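import Mathlib
import Vale.Agent.P052.B63.Main
import Vale.Agent.P052.B63.GramId
import Vale.Agent.P052.B63.CliqueSound
import Vale.Agent.P052.B63.Checks
import Vale.Agent.P052.B63.Clique0
import Vale.Agent.P052.B63.Clique1
import Vale.Agent.P052.B63.Clique2
import Vale.Agent.P052.B63.Clique3
import Vale.Agent.P052.B63.Clique4
import Vale.Agent.P052.B63.Clique5
import Vale.Agent.P052.B63.Clique6
import Vale.Agent.P052.B63.Clique7

/-!
Putting the kernel checks and the abstract part together.
-/

namespace Vale.Agent.P052.B63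

theorem noK6_verts : noK 6 verts = true := by
  have hend : stepL (noK 5) (verts.drop 321) = true := by decide +kernel
  have h7 : stepL (noK 5) (verts.drop 151) = true := by
    refine stepL_of_stepTop (noK 5) 170 (verts.drop 151) clique_chunk7 ?_
    rw [List.drop_drop]
    exact hend
  have h6 : stepL (noK 5) (verts.drop 106) = true := by
    refine stepL_of_stepTop (noK 5) 45 (verts.drop 106) clique_chunk6 ?_
    rw [List.drop_drop]
    exact h7
  have h5 : stepL (noK 5) (verts.drop 77) = true := by
    refine stepL_of_stepTop (noK 5) 29 (verts.drop 77) clique_chunk5 ?_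
    rw [List.drop_drop]
    exact h6
  have h4 : stepL (noK 5) (verts.drop 56) = true := by
    refine stepL_of_stepTop (noK 5) 21 (verts.drop 56) clique_chunk4 ?_
    rw [List.drop_drop]
    exact h5
  have h3 : stepL (noK 5) (verts.drop 38) = true := by
    refine stepL_of_stepTop (noK 5) 18 (verts.drop 38) clique_chunk3 ?_
    rw [List.drop_drop]
    exact h4
  have h2 : stepL (noK 5) (verts.drop 23) = true := by
    refine stepL_of_stepTop (noK 5) 15 (verts.drop 23) clique_chunk2 ?_
    rw [List.drop_drop]
    exact h3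
  have h1 : stepL (noK 5) (verts.drop 11) = true := by
    refine stepL_of_stepTop (noK 5) 12 (verts.drop 11) clique_chunk1 ?_
    rw [List.drop_drop]
    exact h2
  have h0 : stepL (noK 5) (verts.drop 0) = true := by
    refine stepL_of_stepTop (noK 5) 11 (verts.drop 0) clique_chunk0 ?_
    rw [List.drop_drop]
    exact h1
  exact h0

theorem clique_bound (S : Finset ℕ) (hS : ∀ i ∈ S, i < 321)
    (hcl : ∀ i ∈ S, ∀ j ∈ S, i ≠ j → gE Ps i j = 3) : S.card ≤ 5 := by
  have hlink : ∀ p ∈ verts, ∀ q ∈ verts, gE Ps p.1 q.1 = 3 → tb p.2 q.1 = true := by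
    intro p hp q hq h
    refine linkAll_sound Ps verts verts link_all p hp q hq ?_
    unfold gE at h
    omega
  have := noK_sound (fun i j => gE Ps i j = 3) 6 verts hlink noK6_verts S ?_ hcl
  · omega
  · intro i hi
    rw [verts_fst]
    exact List.mem_range.mpr (hS i hi)

theorem borsuk63 :
    ∃ X : Set (EuclideanSpace ℝ (Fin 63)), X.Finite ∧ 0 < Metric.diam X ∧
      ¬ ∃ P : Fin 64 → Set (EuclideanSpace ℝ (Fin 63)), (⋃ i, P i) = X ∧
        ∀ i, Metric.diam (P i) < Metric.diam X := by
  refine borsuk63_of_gram (gE Ps) (gram_identity Ps length_Ps repack_all row_all sum_all)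
    ?_ ?_ ?_ ?_ ?_ clique_bound
  · have h := trace_all
    rw [sumFrom_eq] at h
    unfold gE
    rw [Finset.sum_sub_distrib]
    have h' : (∑ i ∈ Finset.range 416, ((dig (nth Ps i) i : ℕ) : ℤ)) = 12704 := by
      exact_mod_cast h
    rw [h']
    simp
  · intro i hi
    have h := (allFrom_iff _ 0 320).mp diag_all i hi
    have h2 : dig (nth Ps (0 + i)) (0 + i) = 31 := Nat.eq_of_beq_eq_true h
    rw [Nat.zero_add] at h2
    unfold gE
    rw [h2]; norm_num
  · unfold gE
    rw [diag_last]; norm_num
  · intro i hi j hj hij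
    have h := (allFrom_iff _ 0 321).mp off_all i hi
    have h2 := offRow_sound _ _ _ h j hj (by rw [Nat.zero_add]; exact fun h => hij h.symm)
    rw [Nat.zero_add] at h2
    unfold gE
    rcases h2 with h2 | h2 <;> rw [h2]
    · left; norm_num
    · right; norm_num
  · refine ⟨0, by norm_num, 1, by norm_num, ?_⟩
    unfold gE
    rw [far_pair]; norm_num

end Vale.Agent.P052.B63
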